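import Mathlib

/-!
# P013: a window bound that sets aside the small primes

If `S` is a set of prime factors of `n`, `P = ∏_{p ∈ S} p`, and the remaining prime factors
`q` of `n` satisfy `∑ ⌈L / q⌉ < L`, then every block of `P * L` consecutive integers contains
an integer coprime to `n`.  The proof looks at the `L` integers of the block that are
congruent to `1` modulo `P`.
-/

namespace Vale.Agent.Lib.P013

open Finset

/-- The members of an arithmetic progression `a₀ + P t`, `t < L`, divisible by a prime `q`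
not dividing `P` number at most `(L + q - 1) / q`. -/
theorem card_progression_le (a₀ P : ℤ) (L q : ℕ) (hq : q.Prime) (hqP : ¬ (q : ℤ) ∣ P) :
    ((range L).filter (fun t : ℕ => (q : ℤ) ∣ a₀ + P * (t : ℤ))).card ≤ (L + q - 1) / q := by
  have hq0 : 0 < q := hq.pos
  have hqi : Prime (q : ℤ) := Nat.prime_iff_prime_int.mp hq
  have hLN : L ≤ (L + q - 1) / q * q := by
    have h1 := Nat.div_add_mod (L + q - 1) q
    have h2 := Nat.mod_lt (L + q - 1) hq0
    have h3 : q * ((L + q - 1) / q) = (L + q - 1) / q * q := Nat.mul_comm _ _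
    omega
  have hcong : ∀ t ∈ (range L).filter (fun t : ℕ => (q : ℤ) ∣ a₀ + P * (t : ℤ)),
      ∀ t' ∈ (range L).filter (fun t : ℕ => (q : ℤ) ∣ a₀ + P * (t : ℤ)), t % q = t' % q := by
    intro t ht t' ht'
    rw [mem_filter] at ht ht'
    have h1 : (q : ℤ) ∣ P * ((t : ℤ) - (t' : ℤ)) := by
      have h2 := dvd_sub ht.2 ht'.2
      have h3 : a₀ + P * (t : ℤ) - (a₀ + P * (t' : ℤ)) = P * ((t : ℤ) - (t' : ℤ)) := by ring
      rwa [h3] at h2
    have h4 : (q : ℤ) ∣ (t : ℤ) - (t' : ℤ) := (hqi.dvd_or_dvd h1).resolve_left hqP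
    have h5 : (t : ℤ) % (q : ℤ) = (t' : ℤ) % (q : ℤ) := Int.emod_eq_emod_iff_emod_sub_eq_zero.mpr (Int.emod_eq_zero_of_dvd h4)
    exact_mod_cast h5
  calc ((range L).filter (fun t : ℕ => (q : ℤ) ∣ a₀ + P * (t : ℤ))).card
      ≤ (range ((L + q - 1) / q)).card := by
        apply Finset.card_le_card_of_injOn (fun t => t / q)
        · intro t ht
          have ht' := (mem_filter.mp (Finset.mem_coe.mp ht)).1
          rw [mem_range] at ht'
          simp only [Finset.coe_range, Set.mem_Iio]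
          exact (Nat.div_lt_iff_lt_mul hq0).mpr (lt_of_lt_of_le ht' hLN)
        · intro t ht t' ht' hdiv
          have hm := hcong t (Finset.mem_coe.mp ht) t' (Finset.mem_coe.mp ht')
          have e1 := Nat.div_add_mod t q
          have e2 := Nat.div_add_mod t' q
          simp only at hdiv
          rw [hdiv, hm] at e1
          omega
    _ = (L + q - 1) / q := card_range _

/-- Set aside a set `S` of prime factors of `n`, with product `P`.  If the remaining prime
factors `q` satisfy `∑ (L + q - 1) / q < L`, then every block of `P * L` consecutive integers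
contains an integer coprime to `n`. -/
theorem split_window (n : ℕ) (hn : n ≠ 0) (S : Finset ℕ) (hS : S ⊆ n.primeFactors) (L : ℕ)
    (hL : ∑ q ∈ n.primeFactors \ S, (L + q - 1) / q < L) (a : ℤ) :
    ∃ x : ℤ, a < x ∧ x ≤ a + ((∏ p ∈ S, p : ℕ) : ℤ) * (L : ℤ) ∧ IsCoprime x (n : ℤ) := by
  classical
  set P : ℕ := ∏ p ∈ S, p with hPdef
  have hPpos : 0 < P :=
    Finset.prod_pos (fun p hp => (Nat.prime_of_mem_primeFactors (hS hp)).pos)
  have hPi : (0 : ℤ) < (P : ℤ) := by exact_mod_cast hPpos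
  set r : ℤ := (-a) % (P : ℤ) with hr
  have hr0 : 0 ≤ r := Int.emod_nonneg _ (ne_of_gt hPi)
  have hr1 : r < (P : ℤ) := Int.emod_lt_of_pos _ hPi
  have hdiv : (P : ℤ) ∣ a + r := by
    have h1 := Int.emod_add_mul_ediv (-a) (P : ℤ)
    refine ⟨-((-a) / (P : ℤ)), ?_⟩
    rw [hr]; linarith
  obtain ⟨m, hm⟩ := hdiv
  by_contra hcon
  push Not at hcon
  have hcov : range L ⊆ (n.primeFactors \ S).biUnion
      (fun q => (range L).filter (fun t : ℕ => (q : ℤ) ∣ (a + r + 1) + (P : ℤ) * (t : ℤ))) := by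
    intro t ht
    rw [mem_range] at ht
    have ht0 : (0 : ℤ) ≤ (t : ℤ) := Int.natCast_nonneg t
    have ht1 : (t : ℤ) + 1 ≤ (L : ℤ) := by exact_mod_cast ht
    have hx1 : a < (a + r + 1) + (P : ℤ) * (t : ℤ) := by nlinarith
    have hx2 : (a + r + 1) + (P : ℤ) * (t : ℤ) ≤ a + (P : ℤ) * (L : ℤ) := by nlinarith
    have hnc := hcon _ hx1 hx2
    rw [Int.isCoprime_iff_gcd_eq_one] at hnc
    obtain ⟨p, hp, hpd⟩ := Nat.exists_prime_and_dvd hnc
    have hpx : (p : ℤ) ∣ (a + r + 1) + (P : ℤ) * (t : ℤ) := by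
      have h1 : p ∣ ((a + r + 1) + (P : ℤ) * (t : ℤ)).natAbs :=
        hpd.trans (by simpa using Int.gcd_dvd_natAbs_left ((a + r + 1) + (P : ℤ) * (t : ℤ)) (n : ℤ))
      exact Int.natCast_dvd.mpr h1
    have hpn : p ∣ n := by
      have h1 : p ∣ ((n : ℤ)).natAbs :=
        hpd.trans (Int.gcd_dvd_natAbs_right ((a + r + 1) + (P : ℤ) * (t : ℤ)) (n : ℤ))
      simpa using h1
    have hpmem : p ∈ n.primeFactors := Nat.mem_primeFactors.mpr ⟨hp, hpn, hn⟩
    have hpS : p ∉ S := by
      intro hpS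
      have h1 : p ∣ P := Finset.dvd_prod_of_mem (fun p => p) hpS
      have h2 : (p : ℤ) ∣ (P : ℤ) := Int.natCast_dvd_natCast.mpr h1
      have h3 : (a + r + 1) + (P : ℤ) * (t : ℤ) = 1 + (P : ℤ) * (m + (t : ℤ)) := by
        rw [hm]; ring
      rw [h3] at hpx
      have h5 : (p : ℤ) ∣ (P : ℤ) * (m + (t : ℤ)) := Dvd.dvd.mul_right h2 _
      have h6 : (p : ℤ) ∣ 1 := by
        have h7 := dvd_sub hpx h5
        simpa using h7
      have h8 : p ∣ 1 := Int.natCast_dvd_natCast.mp (by simpa using h6)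
      exact hp.one_lt.ne' (Nat.dvd_one.mp h8)
    rw [mem_biUnion]
    exact ⟨p, mem_sdiff.mpr ⟨hpmem, hpS⟩, mem_filter.mpr ⟨mem_range.mpr ht, hpx⟩⟩
  have h1 : (range L).card ≤ ∑ q ∈ n.primeFactors \ S,
      ((range L).filter (fun t : ℕ => (q : ℤ) ∣ (a + r + 1) + (P : ℤ) * (t : ℤ))).card :=
    (card_le_card hcov).trans card_biUnion_le
  have h2 : ∑ q ∈ n.primeFactors \ S,
      ((range L).filter (fun t : ℕ => (q : ℤ) ∣ (a + r + 1) + (P : ℤ) * (t : ℤ))).card ≤
      ∑ q ∈ n.primeFactors \ S, (L + q - 1) / q := by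
    apply Finset.sum_le_sum
    intro q hq
    rw [mem_sdiff] at hq
    have hqp : q.Prime := Nat.prime_of_mem_primeFactors hq.1
    apply card_progression_le _ _ _ _ hqp
    intro hqP
    have h3 : q ∣ P := Int.natCast_dvd_natCast.mp hqP
    obtain ⟨p, hpS, hqp'⟩ := (Prime.dvd_finsetProd_iff (Nat.prime_iff.mp hqp) _).mp h3
    have hpp : p.Prime := Nat.prime_of_mem_primeFactors (hS hpS)
    have hqeq : q = p := (Nat.prime_dvd_prime_iff_eq hqp hpp).mp hqp'
    exact hq.2 (hqeq ▸ hpS)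
  rw [card_range] at h1
  omega

end Vale.Agent.Lib.P013
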