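import Mathlib

/-!
# P013: counting multiples in a window, and a window covered by the prime factors

Two elementary facts used by the hand-in `P013.TwoSidedBounds`:

* a positive integer `p` has at most `(L + p - 1) / p` (the ceiling of `L / p`) multiples
  among `L` consecutive integers;
* for `n ≠ 0` with `k` distinct prime factors there are `k` consecutive integers each
  divisible by a prime factor of `n` (Chinese remainder theorem).
-/

namespace Vale.Agent.Lib.P013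

open Finset

/-- Among the `L` consecutive integers `a + 1, …, a + L`, a positive integer `p` has at most
`(L + p - 1) / p` multiples. -/
theorem card_multiples_le (a : ℤ) (L p : ℕ) (hp : 0 < p) :
    ((Ioc a (a + (L : ℤ))).filter (fun x => (p : ℤ) ∣ x)).card ≤ (L + p - 1) / p := by
  have hp0 : (0 : ℤ) < (p : ℤ) := by exact_mod_cast hp
  have hc := Int.Ioc_filter_dvd_card a (a + (L : ℤ)) hp0
  have e1 : ⌊((a + (L : ℤ) : ℤ) : ℚ) / ((p : ℤ) : ℚ)⌋ = (a + (L : ℤ)) / (p : ℤ) := by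
    rw [Int.cast_natCast]; exact Rat.floor_intCast_div_natCast _ _
  have e2 : ⌊(a : ℚ) / ((p : ℤ) : ℚ)⌋ = a / (p : ℤ) := by
    rw [Int.cast_natCast]; exact Rat.floor_intCast_div_natCast _ _
  rw [e1, e2] at hc
  have hLN : L ≤ (L + p - 1) / p * p := by
    have h1 := Nat.div_add_mod (L + p - 1) p
    have h2 := Nat.mod_lt (L + p - 1) hp
    have h3 : p * ((L + p - 1) / p) = (L + p - 1) / p * p := Nat.mul_comm _ _
    omega
  have h3 : (a + (L : ℤ)) / (p : ℤ) ≤ a / (p : ℤ) + (((L + p - 1) / p : ℕ) : ℤ) := by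
    have h4 : a + (L : ℤ) ≤ a + (((L + p - 1) / p : ℕ) : ℤ) * (p : ℤ) := by
      have h5 : ((L : ℕ) : ℤ) ≤ (((L + p - 1) / p * p : ℕ) : ℤ) := by exact_mod_cast hLN
      rw [Nat.cast_mul] at h5
      linarith
    calc (a + (L : ℤ)) / (p : ℤ)
        ≤ (a + (((L + p - 1) / p : ℕ) : ℤ) * (p : ℤ)) / (p : ℤ) := Int.ediv_le_ediv hp0 h4
      _ = a / (p : ℤ) + (((L + p - 1) / p : ℕ) : ℤ) :=
          Int.add_mul_ediv_right a _ (ne_of_gt hp0)
  have h5 : ((((Ioc a (a + (L : ℤ))).filter (fun x => (p : ℤ) ∣ x)).card : ℕ) : ℤ) ≤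
      (((L + p - 1) / p : ℕ) : ℤ) := by
    rw [hc]
    apply max_le
    · linarith
    · exact Int.natCast_nonneg _
  exact_mod_cast h5

/-- For `n ≠ 0` there are `ω(n)` consecutive integers none of which is coprime to `n`. -/
theorem exists_covered_window (n : ℕ) :
    ∃ a : ℤ, ∀ x : ℤ, a < x → x ≤ a + (n.primeFactors.card : ℤ) → ¬ IsCoprime x (n : ℤ) := by
  classical
  obtain ⟨k, hk⟩ : ∃ k, n.primeFactors.card = k := ⟨_, rfl⟩
  rw [hk]
  let e : Fin k ↪o ℕ := n.primeFactors.orderEmbOfFin hk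
  have hmem : ∀ i, e i ∈ n.primeFactors := fun i => Finset.orderEmbOfFin_mem _ hk i
  have hprime : ∀ i, (e i).Prime := fun i => Nat.prime_of_mem_primeFactors (hmem i)
  have hdvd : ∀ i, e i ∣ n := fun i => Nat.dvd_of_mem_primeFactors (hmem i)
  have pp : Set.Pairwise (↑(Finset.univ : Finset (Fin k)))
      (Function.onFun Nat.Coprime (fun i => e i)) := by
    intro i _ j _ hij
    exact (Nat.coprime_primes (hprime i) (hprime j)).mpr (fun h => hij (e.injective h))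
  obtain ⟨x, hx⟩ := Nat.chineseRemainderOfFinset (fun i : Fin k => (e i - 1) * (i.val + 1))
    (fun i => e i) Finset.univ (fun i _ => (hprime i).ne_zero) pp
  refine ⟨(x : ℤ), fun y hy1 hy2 hcop => ?_⟩
  obtain ⟨j, hj⟩ : ∃ j : ℕ, y = (x : ℤ) + (j : ℤ) + 1 := ⟨(y - x - 1).toNat, by omega⟩
  have hjk : j < k := by omega
  have h1 : x ≡ (e ⟨j, hjk⟩ - 1) * (j + 1) [MOD e ⟨j, hjk⟩] := hx ⟨j, hjk⟩ (Finset.mem_univ _)
  have hone : 1 ≤ e ⟨j, hjk⟩ := (hprime ⟨j, hjk⟩).one_le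
  have h2 : e ⟨j, hjk⟩ ∣ x + (j + 1) := by
    have h3 : x + (j + 1) ≡ (e ⟨j, hjk⟩ - 1) * (j + 1) + (j + 1) [MOD e ⟨j, hjk⟩] :=
      Nat.ModEq.add_right _ h1
    have h4 : (e ⟨j, hjk⟩ - 1) * (j + 1) + (j + 1) = e ⟨j, hjk⟩ * (j + 1) := by
      calc (e ⟨j, hjk⟩ - 1) * (j + 1) + (j + 1) = (e ⟨j, hjk⟩ - 1 + 1) * (j + 1) := by ring
        _ = e ⟨j, hjk⟩ * (j + 1) := by rw [Nat.sub_add_cancel hone]
    rw [h4] at h3
    have h5 : e ⟨j, hjk⟩ * (j + 1) ≡ 0 [MOD e ⟨j, hjk⟩] :=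
      (Nat.modEq_zero_iff_dvd).mpr (dvd_mul_right _ _)
    exact (Nat.modEq_zero_iff_dvd).mp (h3.trans h5)
  have h5 : ((e ⟨j, hjk⟩ : ℕ) : ℤ) ∣ y := by
    rw [hj]
    have h6 : ((e ⟨j, hjk⟩ : ℕ) : ℤ) ∣ ((x + (j + 1) : ℕ) : ℤ) := Int.natCast_dvd_natCast.mpr h2
    have h7 : ((x + (j + 1) : ℕ) : ℤ) = (x : ℤ) + (j : ℤ) + 1 := by push_cast; ring
    rwa [h7] at h6
  have h6 : ((e ⟨j, hjk⟩ : ℕ) : ℤ) ∣ (n : ℤ) := Int.natCast_dvd_natCast.mpr (hdvd ⟨j, hjk⟩)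
  have h7 : IsUnit ((e ⟨j, hjk⟩ : ℕ) : ℤ) := hcop.isUnit_of_dvd' h5 h6
  have h8 := Int.isUnit_iff.mp h7
  have h9 := (hprime ⟨j, hjk⟩).two_le
  omega

end Vale.Agent.Lib.P013
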